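import Vale.Agent.P073.H655.MainT

/-!
# P073, theorem (T): the error of the approximating diffeomorphism
-/

namespace Vale.Agent.P073.H655

open MeasureTheory Set Filter Topology Metric Vale.Agent.P073.St Vale.Agent.P073.AB
open Vale.Agent.P073.SQ (ev cube SuppDiffeo)
open Vale.Agent.P073.H880 (Boxes SpecFill SpecFine)
open _root_.P073 (ConHomeo ConicalOn ConicalWithinAt)
open scoped ContDiff ENNReal

variable {p : ℝ} {Ω Λ K : Set V}

theorem norm_ev (j : Fin 3) : ‖ev j‖ = 1 := by unfold ev; rw [Pi.norm_single]; simp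

theorem aemeasurable_col {f : V → V} {F : V → Mat} (hF : St.IsSobolev p Ω f F) (j : Fin 3) :
    AEMeasurable (fun x => ENNReal.ofReal (‖cl (F x) (ev j)‖ ^ p)) (volume.restrict Ω) := by
  have h2 : AEMeasurable (fun x => cl (F x) (ev j)) (volume.restrict Ω) :=
    ((ContinuousLinearMap.apply ℝ V (ev j)).continuous.comp_aestronglyMeasurable
      (PK.IsSob.aesm hF)).aemeasurable
  exact (h2.norm.pow_const p).ennreal_ofReal

theorem col_ne_top (hp : 1 ≤ p) {f : V → V} {F : V → Mat} (hF : St.IsSobolev p Ω f F) (j : Fin 3) :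
    ∫⁻ x in Ω, ENNReal.ofReal (‖cl (F x) (ev j)‖ ^ p) ≠ ⊤ := by
  have hp0 : 0 ≤ p := by linarith
  refine ne_top_of_le_ne_top (PK.IsSob.lintegral_ne_top hp hF) ?_
  refine lintegral_mono fun x => ?_
  rw [ofReal_norm_rpow hp0]
  apply ENNReal.rpow_le_rpow _ hp0
  rw [← ofReal_norm, ← ofReal_norm]
  apply ENNReal.ofReal_le_ofReal
  refine (ContinuousLinearMap.le_opNorm _ _).trans ?_
  rw [norm_ev, mul_one]

/-- the set where the derivative of the composition is not controlled -/
def badSet (Ω : Set V) {Λ K' : Set V} (f : V → V) (W : Boxes Λ K') (κ : ℝ) : Set V :=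
  Ω ∩ f ⁻¹' nearSet W κ

theorem isOpen_badSet (hΩ : IsOpen Ω) {Λ K' : Set V} {f : V → V} (hf : ContinuousOn f Ω)
    (W : Boxes Λ K') (κ : ℝ) : IsOpen (badSet Ω f W κ) :=
  hf.isOpen_inter_preimage hΩ (isOpen_nearSet W κ)

open Classical in
/-- **the approximating diffeomorphism** -/
theorem exists_P (hp : 1 ≤ p) (hFill : SpecFill) (hB : SpecBoxesIn)
    {C : ℝ} (hC : SqzC C)
    (hΩ : St.IsBoundedDomain Ω) (hΛ : St.IsBoundedDomain Λ) (hK : K ⊆ Ω) (hKo : IsOpen (Ω \ K))
    {f : V → V} {F : V → Mat} (hf : St.IsHomeo Ω Λ f) (hF : St.IsSobolev p Ω f F)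
    (hO : FineOff Ω Λ K f F)
    (hnull : ∀ l : Fin 3, volume ((fun y : V => y l) '' (f '' K)) = 0)
    (W : Boxes Λ (f '' K)) {κ : ℝ} (hκ : 0 < κ) :
    ∃ P : V → V, St.IsDiffeo Ω Λ P ∧ (∀ x ∈ Ω, ‖P x - f x‖ ≤ 5 * κ) ∧
      ∀ j, ∫⁻ x in Ω, ENNReal.ofReal (‖fderiv ℝ P x (ev j) - cl (F x) (ev j)‖ ^ p) ≤
        ENNReal.ofReal (5 ^ (p - 1) * (max C 1 + 1) ^ p) *
        (ENNReal.ofReal κ + (ENNReal.ofReal κ + (ENNReal.ofReal (κ ^ p) * volume Ω +
          ((∫⁻ x in badSet Ω f W (3 * κ), ENNReal.ofReal (‖cl (F x) (ev j)‖ ^ p)) +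
            ENNReal.ofReal (κ ^ p) *
              ∫⁻ x in Ω, ENNReal.ofReal (‖cl (F x) (ev j)‖ ^ p))))) := by
  have hp0 : 0 < p := by linarith
  set C' := max C 1 with hC'
  have hC1 : 1 ≤ C' := le_max_right _ _
  have hK' := isOpen_diff_image hΛ.1 hK hKo hf
  have hfc : ContinuousOn f Ω := by
    obtain ⟨_, -, h, -⟩ := hf
    exact h
  obtain ⟨U, hUo, hUsub, hKU, hUκ, hS⟩ := exists_sqz hC hΛ.1 hK' hnull W hκ
  have hNo : IsOpen (⋃ i, U i) := isOpen_iUnion hUo
  have hNΛ : (⋃ i, U i) ⊆ Λ :=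
    iUnion_subset fun i => (hUsub i).trans (ocube_subset.trans (W.sub i))
  obtain ⟨g, G, H, A, hG, hKA, hAN, hgf, hHg, hGH, hHA, hgK, hGA, hae, hint⟩ :=
    exists_geom hp hFill hB hΩ hΛ hK hKo hO hnull hNo hKU hNΛ hκ
  have hGs := diffeo_smooth hG
  -- compact sets
  set Q : W.ι → Set V := fun i => Ω ∩ G ⁻¹' cube (W.c i) (W.ρ i) with hQ
  have hQc : ∀ i, IsCompact (Q i) := by
    intro i
    obtain ⟨k, ⟨h1, h2⟩, _, h4⟩ := hG
    have hk : ContinuousOn k Λ := (smooth_of_sm h4).continuousOn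
    have : Q i = k '' cube (W.c i) (W.ρ i) := by
      ext x
      constructor
      · rintro ⟨hx, hx'⟩
        exact ⟨G x, hx', (h1 x hx).2⟩
      · rintro ⟨y, hy, rfl⟩
        have hyΛ := W.sub i hy
        refine ⟨(h2 y hyΛ).1, ?_⟩
        show G (k y) ∈ cube (W.c i) (W.ρ i)
        rw [(h2 y hyΛ).2]
        exact hy
    rw [this]
    exact (isCompact_cube (W.pos i)).image_of_continuousOn (hk.mono (W.sub i))
  have := W.cnt
  obtain ⟨ε, hε, hε1, T1, hT1m, hT1i, hT1⟩ :=
    sum_energy hp hΩ.1 hGs hQc (fun i => inter_subset_left) hκ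
  obtain ⟨S, hSd, hSκ, hSC, hSU, hSfar⟩ := hS ε hε hε1
  refine ⟨S ∘ G, isDiffeo_comp hG hSd, ?_, fun j => ?_⟩
  · intro x hx
    have h1 := hSκ (G x) (diffeo_maps hG hx)
    have h2 := hGH x hx
    have h3 := hHg x hx
    have h4 := hgf x hx
    have e : (S ∘ G) x - f x = (S (G x) - G x) + (G x - H.toFun x) + (H.toFun x - g x) +
        (g x - f x) := by
      simp only [Function.comp]; abel
    rw [e]
    have n1 := norm_add_le ((S (G x) - G x) + (G x - H.toFun x) + (H.toFun x - g x)) (g x - f x)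
    have n2 := norm_add_le ((S (G x) - G x) + (G x - H.toFun x)) (H.toFun x - g x)
    have n3 := norm_add_le (S (G x) - G x) (G x - H.toFun x)
    linarith
  set E : Set V := badSet Ω f W (3 * κ) with hE
  have hEo : IsOpen E := isOpen_badSet hΩ.1 hfc W _
  -- the pointwise estimate
  have hpt : ∀ᵐ x ∂(volume : Measure V), x ∈ Ω →
      ENNReal.ofReal (‖fderiv ℝ (S ∘ G) x (ev j) - cl (F x) (ev j)‖ ^ p) ≤
        ENNReal.ofReal (5 ^ (p - 1) * (C' + 1) ^ p) *
        (T1 j x + (ENNReal.ofReal (‖fderiv ℝ G x (ev j) - fderiv ℝ H.toFun x (ev j)‖ ^ p) +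
          (ENNReal.ofReal (κ ^ p) +
          (E.indicator (fun x => ENNReal.ofReal (‖cl (F x) (ev j)‖ ^ p)) x +
            ENNReal.ofReal (κ ^ p) * ENNReal.ofReal (‖cl (F x) (ev j)‖ ^ p))))) := by
    filter_upwards [hae] with x hx1 hxΩ
    have hy : G x ∈ Λ := diffeo_maps hG hxΩ
    have hS' : HasFDerivAt S (fderiv ℝ S (G x)) (G x) :=
      diffeo_diff hΛ.1 (diffeo_smooth hSd) hy
    have hG' : HasFDerivAt G (fderiv ℝ G x) x := diffeo_diff hΩ.1 hGs hxΩ
    have hch : fderiv ℝ (S ∘ G) x (ev j) = fderiv ℝ S (G x) (fderiv ℝ G x (ev j)) := by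
      rw [(hS'.comp x hG').fderiv]
      rfl
    rw [hch]
    set b : V := cl (F x) (ev j) with hb
    set dG : V := fderiv ℝ G x (ev j) with hdG
    set dH : V := fderiv ℝ H.toFun x (ev j) with hdH
    set w : ℝ := if x ∈ E then ‖b‖ else 0 with hw
    have hw0 : 0 ≤ w := by
      rw [hw]; split_ifs
      · exact norm_nonneg _
      · exact le_rfl
    have hwi : ENNReal.ofReal (w ^ p) =
        E.indicator (fun x => ENNReal.ofReal (‖cl (F x) (ev j)‖ ^ p)) x := by
      by_cases hxE : x ∈ E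
      · rw [indicator_of_mem hxE, hw, if_pos hxE]
      · rw [indicator_of_notMem hxE, hw, if_neg hxE, Real.zero_rpow hp0.ne', ENNReal.ofReal_zero]
    have key : ∃ t : ℝ, 0 ≤ t ∧ ENNReal.ofReal (t ^ p) ≤ T1 j x ∧
        ‖fderiv ℝ S (G x) dG - b‖ ≤ t + C' * ‖dG - dH‖ + C' * κ + (C' + 1) * w + κ * ‖b‖ := by
      by_cases hgA : g x ∈ A
      · -- the squeezed part
        obtain ⟨i, hi⟩ := mem_iUnion.1 (hGA x hxΩ hgA)
        refine ⟨ε i * ‖dG‖, mul_nonneg (hε i).le (norm_nonneg _),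
          hT1 j i x ⟨hxΩ, ocube_subset (hUsub i hi)⟩, ?_⟩
        have hxE : x ∈ E := by
          obtain ⟨i', hi'⟩ := mem_iUnion.1 (hAN hgA)
          obtain ⟨z, hz, hzl⟩ := hUκ i' _ hi' 0
          have h1 : ‖f x - g x‖ ≤ κ := by rw [norm_sub_rev]; exact hgf x hxΩ
          refine ⟨hxΩ, i', ⟨g x, ocube_subset (hUsub i' hi'), by linarith⟩, 0, z, hz, ?_⟩
          have h2 : |f x 0 - g x 0| ≤ ‖f x - g x‖ := norm_le_pi_norm (f x - g x) 0
          have h3 := abs_sub_le (f x 0) (g x 0) (z 0)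
          linarith
        have hwb : w = ‖b‖ := by rw [hw, if_pos hxE]
        rw [hSU i _ hi, hwb]
        have h1 : ‖(ε i • ContinuousLinearMap.id ℝ V) dG - b‖ ≤ ε i * ‖dG‖ + ‖b‖ := by
          refine (norm_sub_le _ _).trans ?_
          have : ‖(ε i • ContinuousLinearMap.id ℝ V) dG‖ = ε i * ‖dG‖ := by
            show ‖ε i • dG‖ = _
            rw [norm_smul, Real.norm_of_nonneg (hε i).le]
          rw [this]
        have h2 : 0 ≤ C' * ‖dG - dH‖ := by positivity
        have h3 : 0 ≤ C' * κ := by positivity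
        have h4 : 0 ≤ C' * ‖b‖ := by positivity
        have h5 : 0 ≤ κ * ‖b‖ := by positivity
        linarith
      · -- the unsqueezed part
        refine ⟨0, le_rfl, ?_, ?_⟩
        · rw [Real.zero_rpow hp0.ne', ENNReal.ofReal_zero]
          exact zero_le
        have hHb : ‖dH - b‖ ≤ κ := hx1 hxΩ hgA j
        set L := fderiv ℝ S (G x) with hL
        have hLC : ‖L‖ ≤ C' := hSC _ hy
        have e : L dG - b = L (dG - dH) + L (dH - b) +
            (L - ContinuousLinearMap.id ℝ V) b := by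
          simp only [map_sub, _root_.sub_apply, ContinuousLinearMap.id_apply]
          abel
        have n1 : ‖L (dG - dH)‖ ≤ C' * ‖dG - dH‖ :=
          (L.le_opNorm _).trans (mul_le_mul_of_nonneg_right hLC (norm_nonneg _))
        have n2 : ‖L (dH - b)‖ ≤ C' * κ :=
          (L.le_opNorm _).trans (mul_le_mul hLC hHb (norm_nonneg _) (by positivity))
        have n3 : ‖(L - ContinuousLinearMap.id ℝ V) b‖ ≤ (C' + 1) * w + κ * ‖b‖ := by
          have h0 := (L - ContinuousLinearMap.id ℝ V).le_opNorm b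
          by_cases hxE : x ∈ E
          · have hwb : w = ‖b‖ := by rw [hw, if_pos hxE]
            have h1 : ‖L - ContinuousLinearMap.id ℝ V‖ ≤ C' + 1 :=
              (norm_sub_le _ _).trans (add_le_add hLC ContinuousLinearMap.norm_id_le)
            have h2 := mul_le_mul_of_nonneg_right h1 (norm_nonneg b)
            have h3 : 0 ≤ κ * ‖b‖ := by positivity
            rw [hwb]
            linarith
          · have hwb : w = 0 := by rw [hw, if_neg hxE]
            have h1 : ‖L - ContinuousLinearMap.id ℝ V‖ ≤ κ := by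
              refine hSfar _ hy fun i hi l z hz => ?_
              by_contra hlt
              rw [not_le] at hlt
              apply hxE
              have h2 : ‖f x - g x‖ ≤ κ := by rw [norm_sub_rev]; exact hgf x hxΩ
              have h3 : ‖g x - G x‖ ≤ κ := by
                rw [← hHA x hxΩ hgA, norm_sub_rev]; exact hGH x hxΩ
              have h4 : ‖f x - G x‖ ≤ 2 * κ := by
                have := norm_sub_le_norm_sub_add_norm_sub (f x) (g x) (G x)
                linarith
              refine ⟨hxΩ, i, ⟨G x, ocube_subset hi, by linarith⟩, l, z, hz, ?_⟩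
              have h5 : |f x l - G x l| ≤ ‖f x - G x‖ := norm_le_pi_norm (f x - G x) l
              have h6 := abs_sub_le (f x l) (G x l) (z l)
              linarith
            have h2 := mul_le_mul_of_nonneg_right h1 (norm_nonneg b)
            rw [hwb, mul_zero, zero_add]
            exact h0.trans h2
        rw [e, zero_add]
        have n4 := norm_add_le (L (dG - dH) + L (dH - b)) ((L - ContinuousLinearMap.id ℝ V) b)
        have n5 := norm_add_le (L (dG - dH)) (L (dH - b))
        linarith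
    obtain ⟨t, ht0, htT, hmain⟩ := key
    refine (ennreal_est hp (by linarith : (0:ℝ) ≤ C') hκ.le (norm_nonneg _) ht0 (norm_nonneg _)
      hw0 (norm_nonneg b) hmain).trans ?_
    rw [hwi]
    gcongr
  -- integration
  refine (lintegral_mono_ae ((ae_restrict_iff' hΩ.1.measurableSet).2 hpt)).trans ?_
  rw [lintegral_const_mul' _ _ ENNReal.ofReal_ne_top]
  refine mul_le_mul_right ?_ _
  have hm2 : Measurable fun x =>
      ENNReal.ofReal (‖fderiv ℝ G x (ev j) - fderiv ℝ H.toFun x (ev j)‖ ^ p) :=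
    (((measurable_fderiv_apply_const ℝ G (ev j)).sub
      (measurable_fderiv_apply_const ℝ H.toFun (ev j))).norm.pow_const p).ennreal_ofReal
  rw [lintegral_add_left (hT1m j), lintegral_add_left hm2, lintegral_add_left measurable_const,
    lintegral_add_right' _ ((aemeasurable_col hF j).const_mul _),
    lintegral_const_mul' _ _ ENNReal.ofReal_ne_top, setLIntegral_const]
  refine add_le_add (hT1i j) (add_le_add (hint j) (add_le_add le_rfl (add_le_add ?_ le_rfl)))
  refine (setLIntegral_le_lintegral _ _).trans ?_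
  rw [lintegral_indicator hEo.measurableSet]

end Vale.Agent.P073.H655
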